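import Vale.Agent.P290.H124.Defs

open scoped Manifold ContDiff Topology
open Set Vale.Agent.P290.All Filter

namespace Vale.Agent.P290.H124

variable {X Y : Type} [TopologicalSpace X] [ChartedSpace C2 X] [TopologicalSpace Y]
  [ChartedSpace C2 Y]

/-- composition with a holomorphic map -/
theorem HolV.comp_hol {m : ℕ} {p : X → Y} {F : (Fin m → ℂ) → X} {z : Fin m → ℂ}
    (hp : Hol p (F z)) (hF : HolV F z) : HolV (fun w => p (F w)) z := by
  refine ⟨ContinuousAt.comp (f := F) (g := p) hp.1 hF.1, ?_⟩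
  have h1 : DifferentiableAt ℂ (fun w => chartAt C2 (p (F z))
      (p ((chartAt C2 (F z)).symm (chartAt C2 (F z) (F w))))) z :=
    DifferentiableAt.comp (𝕜 := ℂ) (f := fun w => chartAt C2 (F z) (F w))
      (g := fun y => chartAt C2 (p (F z)) (p ((chartAt C2 (F z)).symm y))) z hp.2 hF.2
  refine h1.congr_of_eventuallyEq ?_
  have h2 : ∀ᶠ w in 𝓝 z, F w ∈ (chartAt C2 (F z)).source :=
    hF.1.eventually ((chartAt C2 (F z)).open_source.mem_nhds (mem_chart_source C2 (F z)))
  filter_upwards [h2] with w hw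
  simp only [(chartAt C2 (F z)).left_inv hw]

/-- a continuous lift of a holomorphic map through an etale map is holomorphic -/
theorem HolV.of_lift {m : ℕ} {p : X → Y} (hp : HolCover p) {f : (Fin m → ℂ) → Y}
    {g : (Fin m → ℂ) → X} {z : Fin m → ℂ} (hg : ContinuousAt g z)
    (hpg : ∀ᶠ w in 𝓝 z, p (g w) = f w) (hf : HolV f z) : HolV g z := by
  refine ⟨hg, ?_⟩
  have hz : p (g z) = f z := hpg.self_of_nhds
  have hf2 : DifferentiableAt ℂ (fun w => chartAt C2 (p (g z)) (f w)) z := by
    rw [hz]; exact hf.2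
  have hsrc : g z ∈ (chartAt C2 (g z)).source := mem_chart_source C2 (g z)
  have hφd := (hp.hol (g z)).2
  have hdet := hp.det (g z)
  have h2 : ∀ᶠ w in 𝓝 z, g w ∈ (chartAt C2 (g z)).source :=
    hg.eventually ((chartAt C2 (g z)).open_source.mem_nhds hsrc)
  have hc : ContinuousAt (fun w => chartAt C2 (g z) (g w)) z :=
    ContinuousAt.comp (f := g) (g := chartAt C2 (g z)) ((chartAt C2 (g z)).continuousAt hsrc) hg
  have key := HasFDerivAt.of_comp_of_leftInverse (𝕜 := ℂ)
    (g := fun w => chartAt C2 (g z) (g w))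
    (f := fun y => chartAt C2 (p (g z)) (p ((chartAt C2 (g z)).symm y)))
    (h := fun w => chartAt C2 (p (g z)) (f w))
    (f'symm := (((fderiv ℂ (fun y => chartAt C2 (p (g z)) (p ((chartAt C2 (g z)).symm y)))
      (chartAt C2 (g z) (g z))).toContinuousLinearEquivOfDetNeZero hdet).symm : C2 →L[ℂ] C2))
    hc hφd.hasFDerivAt hf2.hasFDerivAt
    (by
      filter_upwards [h2, hpg] with w hw hw2
      simp only [Function.comp, (chartAt C2 (g z)).left_inv hw, hw2])
    (fun v => by
      have := ((fderiv ℂ (fun y => chartAt C2 (p (g z)) (p ((chartAt C2 (g z)).symm y)))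
        (chartAt C2 (g z) (g z))).toContinuousLinearEquivOfDetNeZero hdet).symm_apply_apply v
      simpa using this)
  exact key.differentiableAt

/-- an unramified quotient of an Oka surface is Oka -/
theorem isOka_of_cover {p : X → Y} (hp : HolCover p) (hX : IsOka X) : IsOka Y := by
  intro m K U hm hKc hKx hKne hUo hKU f hf d hd hd0 ε hε
  obtain ⟨δ, hδ, hKδ⟩ := hKc.exists_thickening_subset_open hUo hKU
  set V := Metric.thickening δ K with hV
  have hVo : IsOpen V := Metric.isOpen_thickening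
  have hVx : Convex ℝ V := hKx.thickening δ
  have hKV : K ⊆ V := Metric.self_subset_thickening hδ K
  obtain ⟨a, ha⟩ := hKne
  have : Nonempty V := ⟨⟨a, hKV ha⟩⟩
  have : ContractibleSpace V := hVx.contractibleSpace ⟨a, hKV ha⟩
  have : LocallyPathConnectedSpace V := hVo.locallyPathConnectedSpace
  obtain ⟨x0, hx0⟩ := hp.surj (f a)
  have hfc : ContinuousOn f V := fun z hz => (hf z (hKδ hz)).1.continuousWithinAt
  let f0 : C(V, Y) := ⟨fun z => f z.1, hfc.domRestrict⟩
  obtain ⟨F0, ⟨hF0, hF1⟩, -⟩ := hp.cover.existsUnique_continuousMap_lifts f0 ⟨a, hKV ha⟩ x0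
    hx0
  classical
  let g : (Fin m → ℂ) → X := fun z => if h : z ∈ V then F0 ⟨z, h⟩ else x0
  have hgV : V.domRestrict g = F0 := by
    funext z
    simp [g, Set.domRestrict]
  have hgc : ContinuousOn g V := by
    rw [continuousOn_iff_continuous_domRestrict, hgV]
    exact F0.continuous
  have hpg : ∀ z ∈ V, p (g z) = f z := by
    intro z hz
    have h3 : p (F0 ⟨z, hz⟩) = f z := congrFun hF1 ⟨z, hz⟩
    have h4 : g z = F0 ⟨z, hz⟩ := by simp [g, hz]
    rw [h4, h3]
  have hgh : ∀ z ∈ V, HolV g z := fun z hz =>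
    HolV.of_lift hp (hgc.continuousAt (hVo.mem_nhds hz))
      (by filter_upwards [hVo.mem_nhds hz] with w hw using hpg w hw) (hf z (hKδ hz))
  obtain ⟨F, hF, hFd⟩ := hX m K V hm hKc hKx ⟨a, ha⟩ hVo hKV g hgh
    (fun x y => d (p x) (p y))
    (hd.comp (f := fun q : X × X => (p q.1, p q.2))
      ((hp.cover.continuous.comp continuous_fst).prodMk (hp.cover.continuous.comp continuous_snd)))
    (fun x => hd0 _) ε hε
  refine ⟨fun z => p (F z), fun z => HolV.comp_hol (hp.hol _) (hF z), fun z hz => ?_⟩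
  have := hFd z hz
  simpa [hpg z (hKV hz)] using this

end Vale.Agent.P290.H124
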