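import Vale.Agent.P290.K.AllDefs

open scoped Manifold ContDiff Topology
open Set Vale.Agent.P290.All

namespace Vale.Agent.P290.H124

/-- `p : X → Y` is a holomorphic unramified covering of complex surfaces: a surjective topological
covering map which is holomorphic with invertible derivative at every point -/
structure HolCover {X Y : Type} [TopologicalSpace X] [ChartedSpace C2 X] [TopologicalSpace Y]
    [ChartedSpace C2 Y] (p : X → Y) : Prop where
  cover : IsCoveringMap p
  surj : Function.Surjective p
  hol : ∀ x, Hol p x
  det : ∀ x, (fderiv ℂ (fun z => chartAt C2 (p x) (p ((chartAt C2 x).symm z)))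
    (chartAt C2 x x)).det ≠ 0

end Vale.Agent.P290.H124
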