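import Vale.Agent.P290.Bdl.B3

open Set Vale.Agent.P290.All
open scoped Manifold ContDiff Topology

namespace Vale.Agent.P290.H124

/-- the Kummer surface of every torus exists -/
theorem exists_kummer_surface (l : Fin 4 → C2) (hl : LinearIndependent ℝ l) :
    ∃ (X : Type) (_ : TopologicalSpace X) (_ : ChartedSpace C2 X),
      IsManifold 𝓘(ℂ, C2) ω X ∧ T2Space X ∧
        Nonempty (Kummer (AddSubgroup.closure (range l)) X) := by
  obtain ⟨D⟩ := Vale.Agent.P290.Kum.exists_kummer hl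
  have hD : ∀ (L : AddSubgroup C2) (a : C2) (b : Bool) (v : C2),
      (a + a ∈ L ∧ Vale.Agent.P290.Kum.Dom L b v) ↔ Dom L a b v := by
    intro L a b v
    refine and_congr Iff.rfl (forall_congr' fun w => ?_)
    rw [two_mul]
    rfl
  refine ⟨(K.kAtlas hl).Space, inferInstance, inferInstance, inferInstance, K.t2_kAtlas hl,
    ⟨⟨D.N, ?_, ?_, ?_⟩⟩⟩
  · intro a b v h
    obtain ⟨ha, hv⟩ := (hD _ a b v).2 h
    exact D.etale a b v ha hv
  · intro y
    obtain ⟨a, b, v, h1, h2, rfl⟩ := D.cover y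
    exact ⟨a, b, v, (hD _ a b v).1 ⟨h1, h2⟩, rfl⟩
  · intro a b v a' b' v' h h'
    obtain ⟨ha, hv⟩ := (hD _ a b v).2 h
    obtain ⟨ha', hv'⟩ := (hD _ a' b' v').2 h'
    exact D.rel a b v a' b' v' ha hv ha' hv'

end Vale.Agent.P290.H124
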